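import Crest.Agent.X262.Gwb59.Ax
import Crest.Agent.X262.EndsMk.Tan

/-!
# Row 262, road B, ENDS-CL (helper50), part 1: the class of the insertion `lin`

* `itg_lin`   : the class-level number is the invariant of `Ends.lin`;
* `deg_zero`  : a coordinate without zeros on a tree forces degree zero;
* `exists_plc` : a point of the target gives a place of the function field;
* `exists_mh` : elements of an affine chart ring are values of multihomogeneous polynomials.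
-/

set_option autoImplicit false
set_option linter.unusedSectionVars false

noncomputable section

namespace Crest.Agent.X262.EndsCl

open Crest.Agent.X277 Crest.Agent.X277.BD
open Crest.Agent.X262.Coh Crest.Agent.X262.Vb Crest.Agent.X262.Qn Crest.Agent.X262.Gwb
open Crest.Agent.X262.Ends (lin)
open Crest.Agent.X262.Bub96 (Tr hv)
open Finset

section Gen

variable {J : Type} [Fintype J] [DecidableEq J] {io : J → Type} [∀ j, Fintype (io j)]
  [∀ j, DecidableEq (io j)] {A : Type} [Fintype A]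

theorem mcls_lin {B : Hb.Th} (hB : B.Ax) (T : Tgt io A) (ν : J → ℕ) (j₁ : J) {M : Type}
    [Fintype M] (q₀ : M) : MCls B T (lin B ν j₁ q₀) :=
  mcls_mul (mcls_prd fun _ => cls_hc hB j₁) (mcls_at (α := fun E _ _ y => ∏ j, hc B j E y ^ ν j)
    ⟨fun E _ _ _ y c h1 h2 h3 => prod_congr rfl fun j _ => by
        rw [(cls_hc (T := T) hB j).scl E y c h1 h2 h3],
      fun K E _ _ _ _ _ _ p y h1 h2 => (map_prod _ _ _).trans (prod_congr rfl fun j _ => by
        rw [map_pow, (cls_hc (T := T) hB j).nat K E p y h1 h2])⟩ q₀)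

theorem deg_zero {k : Type} [Field k] [IsAlgClosed k] (t : Tr k J io) {j : J} {i : io j}
    (h : ∀ x, t.ev x j i ≠ 0) : t.deg j = 0 := by
  induction t with
  | leaf d g =>
    have h1 : (g j i).coeff (d j) ≠ 0 := h ((), none)
    by_contra h2
    obtain ⟨x, hx⟩ := IsAlgClosed.exists_root (g j i) (Polynomial.natDegree_pos_iff_degree_pos.1
      ((Nat.pos_of_ne_zero h2).trans_le (Polynomial.le_natDegree_of_ne_zero h1))).ne'
    exact h ((), some x) hx
  | glue t p s iht ihs =>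
    change t.deg j + s.deg j = 0
    rw [iht fun x => h (Sum.inl x.1, x.2), ihs fun x => h (Sum.inr x.1, x.2)]

theorem exists_mh {K : Type} [Field K] [Algebra ℂ K] (y : Pnt io K) {j : J} {i₀ : io j}
    (h0 : y j i₀ = 1) {a : K} (ha : a ∈ Algebra.adjoin ℂ (Set.range (y j))) :
    ∃ q κ, MH q κ ∧ pv y q = a := by
  have hX : ∀ i, MH (MvPolynomial.X (⟨j, i⟩ : Vr io)) (Pi.single j 1) := fun i =>
    MvPolynomial.isWeightedHomogeneous_X ℂ _ _
  suffices h : ∃ q, ∃ k : ℕ, MH q (k • Pi.single j 1) ∧ pv y q = a from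
    h.imp fun _ ⟨_, h⟩ => ⟨_, h⟩
  induction ha using Algebra.adjoin_induction with
  | mem x hx =>
    obtain ⟨i, rfl⟩ := hx
    exact ⟨MvPolynomial.X ⟨j, i⟩, 1, by rw [one_smul]; exact hX i, MvPolynomial.aeval_X _ _⟩
  | algebraMap c =>
    exact ⟨MvPolynomial.C c, 0, by rw [zero_smul]; exact MvPolynomial.isWeightedHomogeneous_C _ c,
      MvPolynomial.aeval_C _ _⟩
  | add a b _ _ h1 h2 =>
    obtain ⟨q, k, h1, rfl⟩ := h1
    obtain ⟨q', k', h2, rfl⟩ := h2
    exact ⟨q * MvPolynomial.X ⟨j, i₀⟩ ^ k' + MvPolynomial.X ⟨j, i₀⟩ ^ k * q', k + k',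
      by rw [add_smul]; exact (h1.mul ((hX i₀).pow k')).add (((hX i₀).pow k).mul h2),
      by simp [pv, h0]⟩
  | mul a b _ _ h1 h2 =>
    obtain ⟨q, k, h1, rfl⟩ := h1
    obtain ⟨q', k', h2, rfl⟩ := h2
    exact ⟨q * q', k + k', by rw [add_smul]; exact h1.mul h2, map_mul _ _ _⟩

theorem aeval_mem {σ K : Type} [Field K] [Algebra ℂ K] {S : Subalgebra ℂ K} {a : σ → K}
    (h : ∀ s, a s ∈ S) (q : MvPolynomial σ ℂ) : MvPolynomial.aeval a q ∈ S :=
  Algebra.adjoin_le (Set.range_subset_iff.2 h)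
    (by rw [Algebra.adjoin_range_eq_range_aeval]; exact ⟨q, rfl⟩)

theorem pv_div {K : Type} [Field K] [Algebra ℂ K] {q : MvPolynomial (Vr io) ℂ} {κ : J → ℕ}
    (h : MH q κ) (y : Pnt io K) (n : J → K) :
    pv (fun j i => y j i / n j) q = (∏ j, (n j)⁻¹ ^ κ j) * pv y q := by
  simp only [div_eq_inv_mul]
  exact Node22.mh_aeval h (fun j => (n j)⁻¹) fun v => y v.1 v.2

/-- a point of the target is a place of the function field -/
theorem exists_plc [DecidableEq A] {K L : Type} [Field K] [Algebra ℂ K] [Field L] [Algebra ℂ L]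
    {T : Tgt io A} {y : Pnt io K}
    (hT : Ideal.span (Set.range T.F) = Syz.hI ℂ Sigma.fst fun v : Vr io => y v.1 v.2)
    {z : Pnt io L} (hz : T.On z) (c : ∀ j, io j) (hc : ∀ j, z j (c j) ≠ 0) :
    ∃ p : AN.G1.Plc K L, ∀ j i,
      y j i / y j (c j) ∈ p.O ∧ p.π (y j i / y j (c j)) = z j i / z j (c j) := by
  obtain ⟨φ, hφ⟩ := Syz.exists_hom_of_on hT (c := fun j => ⟨j, c j⟩) (fun _ => rfl)
    (fun j => Syz.ne_of_on hT hz (hc j)) hz (t := fun j => (z j (c j))⁻¹)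
    fun j => inv_mul_cancel₀ (hc j)
  refine ⟨AN.G1.plcAt φ, fun j i => ⟨AN.G1.le_plcAt φ (Algebra.subset_adjoin ⟨⟨j, i⟩, rfl⟩), ?_⟩⟩
  have h1 := hφ (MvPolynomial.X ⟨j, i⟩)
  rw [← AN.G1.plcAt_π, Syz.coe_mpi, MvPolynomial.aeval_X, MvPolynomial.aeval_X] at h1
  exact h1.trans (inv_mul_eq_div _ _)

end Gen

variable {C : Coh.Th} {B : Hb.Th}

/-- **the class-level number** -/
theorem itg_lin (V : Vir C B) {Y : SV} (m : Emb Y) (d : m.J →₀ ℕ) (ν : m.J → ℕ) (j₁ : m.J) :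
    C.itg Y ((∏ j, m.h C j ^ ν j) * m.h C j₁ * V.gw.op m d (m.h C j₁ ::ₘ m.h C j₁ ::ₘ 0)) =
      GW B m.tgt d (lin B ν j₁ (0 : Fin 3)) := by
  have h1 : ((∏ j, m.h C j ^ ν j) * m.h C j₁) ::ₘ m.h C j₁ ::ₘ m.h C j₁ ::ₘ 0 =
      univ.val.map ![(∏ j, m.h C j ^ ν j) * m.h C j₁, m.h C j₁, m.h C j₁] := by
    simp [Fin.univ_val_map, ← Multiset.cons_coe]
  rw [V.itg_op m d (by simp), h1, Ev.gw_eq (V.a0 m d)]
  refine GW_congr (V.a0 m d) (Ev.mcls (V.evAx m) _) (mcls_lin V.hB _ _ _ _)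
    fun E _ _ _ y h2 h3 => ?_
  have h4 : ∀ q j, V.I.ev m.toPre E (y q) (m.h C j) = hc B j E (y q) := fun q j =>
    (V.evAx m).hc j E _ (h2 q) (h3 q)
  rw [prd, lin, Fin.prod_univ_three, Fin.prod_univ_three]
  change V.I.ev m.toPre E (y 0) (_ * _) * V.I.ev m.toPre E (y 1) (m.h C j₁) *
    V.I.ev m.toPre E (y 2) (m.h C j₁) = _
  simp only [map_mul, map_prod, map_pow, h4]
  ring

end Crest.Agent.X262.EndsCl
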