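import Crest.Agent.X262.EndsCl.Cls
import Crest.Agent.X262.Blow.Exc
import Crest.Agent.X262.Bl53.Defs

/-!
# Row 262, road B, ENDS-CL (helper50), part 2: the exceptional line of a blow-up

* `sw`          : contracted trees lie in the exceptional divisor;
* `exists_line` : the generic fibre of the exceptional divisor, `Ends.Line` and `Ends.Tan`;
* `nume`        : `Bl53.NUME` for the instance.
-/

set_option autoImplicit false
set_option linter.unusedSectionVars false

noncomputable section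

namespace Crest.Agent.X262.EndsCl

open Crest.Agent.X277 Crest.Agent.X277.Lef Crest.Agent.X277.AN.G1 Crest.Agent.X277.BD
open Crest.Agent.X277.Res.Out (Coords)
open Crest.Agent.X277.Res.Log (On un_iff)
open Crest.Agent.X277.Strat.Fac (exists_pt_le π_ne)
open Crest.Agent.X262.Coh Crest.Agent.X262.Vb Crest.Agent.X262.Gwb Crest.Agent.X262.Ends
open Crest.Agent.X262.Blow Crest.Agent.X262.EndsMk
open Crest.Agent.X262.Bl53 (tup2 NUME)
open Polynomial WithZero

variable {K κ : Type} [Field K] [Algebra ℂ K] [Field κ] [Algebra ℂ κ] {P : PModel ℂ K}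
  {q : Plc K κ} (g : Gens P q)

/-- the index sets -/
abbrev io2 : Bool → Type := fun j => (tup2 g j).io

/-- the generic point -/
abbrev y2 : Pnt (io2 g) K := fun j i => (tup2 g j).y i

/-- the normalising factors along the exceptional divisor -/
def n2 (i₀ : Fin (P.N + 1)) (s : K) : Bool → K
  | false => P.y i₀
  | true => P.y i₀ ^ g.m * s

/-- the index of a chart -/
def e2 (l : Fin (P.N + 1)) (j : Fin (g.M + 1)) : (b : Bool) → io2 g b
  | false => l
  | true => j

variable {g} {A : Type} [Fintype A] [DecidableEq A] {T : Tgt (io2 g) A} {d : Bool → ℕ}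

theorem v_aeval_lt {v : Valuation K ℤᵐ⁰} (hv : IsOrd q v) {u : K} (hu : v u ≤ 1) {p : q.O[X]}
    (hp : p.map (q.hom : q.O →+* κ) = 0) : v (aeval u p) < 1 := by
  rw [aeval_eq_sum_range]
  refine v.map_sum_lt one_ne_zero fun i _ => ?_
  rw [Algebra.smul_def, map_mul, map_pow]
  exact mul_lt_one_of_lt_of_le ((hv.lt_one_iff (p.coeff i).2).2
    ((coeff_map _ i).symm.trans (by rw [hp, coeff_zero]))) (pow_le_one' hu _)

/-- **contracted trees lie in the exceptional divisor** -/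
theorem sw (h : SmC P q 2 2) (hT : Ideal.span (Set.range T.F) =
      Syz.hI ℂ Sigma.fst fun v : Vr (io2 g) => y2 g v.1 v.2) (d0 : d false = 0) (d1 : d true ≠ 0)
    {v : Valuation K ℤᵐ⁰} (hv : IsOrd q v) {i₀ : Fin (P.N + 1)} {s : K} (hs : v s = exp (-1 : ℤ))
    {Q : MvPolynomial (Vr (io2 g)) ℂ} {k : Bool → ℕ} (hQ : MH Q k)
    (h0 : v (pv (fun j i => y2 g j i / n2 g i₀ s j) Q) < 1) {E : Type} [Field E] [Algebra ℂ E]
    {z : Pnt (io2 g) E} (hz : TreePts T d fun _ : Unit => z) : pv z Q = 0 := by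
  obtain ⟨L, _, _, _, α, t, x, c, hok, rfl, hon, -, hz⟩ := hz
  suffices h1 : pv (t.ev (x ())) Q = 0 by
    refine α.injective ?_
    change α (pv _ _) = α 0
    rw [map_zero, pv, ← AlgHom.comp_apply, MvPolynomial.comp_aeval]
    simp only [hz ()]
    exact (Node22.mh_aeval hQ (c ()) _).trans (mul_eq_zero_of_right _ h1)
  generalize x () = x₀
  obtain ⟨l, hl⟩ : ∃ l : Fin (P.N + 1), t.ev x₀ false l ≠ 0 := nz_ev t hok x₀ false
  obtain ⟨j₀, hj₀⟩ : ∃ j : Fin (g.M + 1), t.ev x₀ true j ≠ 0 := nz_ev t hok x₀ true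
  have he : ∀ j, t.ev x₀ j (e2 g l j₀ j) ≠ 0 := by
    rintro (_ | _)
    exacts [hl, hj₀]
  obtain ⟨p, hp⟩ := exists_plc hT (hon x₀) _ he
  have hA : P.A l ≤ p.O := Algebra.adjoin_le (Set.range_subset_iff.2 fun i => (hp false i).1)
  by_cases h1 : p.π (g.g l j₀) = 0
  · obtain ⟨x', hx', hle⟩ := exists_pt_le (P := g.bl h) (i := g.ix h l j₀) (q := p)
      (g.A_ix h _ _ ▸ chB_le hA fun k => (hp true k).1)
    obtain ⟨hi, hj⟩ := Gens.mem_pat_ix.1 hx'
    have hOn : On v x' := by_contra fun h2 => π_ne hle (un_iff.2 (hv.ev_g_ne h2 hi hj)) h1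
    have hq := hv.eqn_g hOn hi hj
    have h2 : ∀ i, P.y i / P.y l ∈ (lp x').O := fun i => (Gens.r_dom x').le (y_mem hi i)
    have h3 : pv (fun j i => y2 g j i / y2 g j (e2 g l j₀ j)) Q ∈ (lp x').O := aeval_mem (by
      rintro ⟨_ | _, i⟩
      exacts [h2 i, hj i]) Q
    have hs0 : s ≠ 0 := by rintro rfl; exact exp_ne_zero (hs.symm.trans v.map_zero)
    have h4 : (fun j i => y2 g j i / y2 g j (e2 g l j₀ j)) =
        fun j i => y2 g j i / n2 g i₀ s j / (y2 g j (e2 g l j₀ j) / n2 g i₀ s j) := by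
      funext j i
      refine (div_div_div_cancel_right₀ ?_ _ _).symm
      cases j
      exacts [P.y_ne _, mul_ne_zero (pow_ne_zero _ (P.y_ne _)) hs0]
    have h5 : v (pv (fun j i => y2 g j i / y2 g j (e2 g l j₀ j)) Q) < 1 := by
      rw [h4, pv_div hQ, map_mul, map_prod, mul_comm]
      refine mul_lt_one_of_lt_of_le h0 (Finset.prod_le_one' fun j _ => ?_)
      rw [map_pow, inv_div]
      refine pow_le_one' ?_ _
      cases j
      · change v (P.y i₀ / P.y l) ≤ 1
        exact hOn _ (h2 i₀)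
      · change v (P.y i₀ ^ g.m * s / g.f j₀) ≤ 1
        have h6 : P.y i₀ ^ g.m * s / g.f j₀ = (P.y i₀ / P.y l) ^ g.m * (s / g.g l j₀) := by
          have := P.y_ne l
          rw [div_pow]
          field_simp
        rw [h6, map_mul, map_pow, map_div₀ v s, hs, hq.val, div_self exp_ne_zero, mul_one]
        exact pow_le_one' (hOn _ (h2 i₀)) _
    have h6 := p.π_mul (hle (hq.div _ h3 h5)) (hle hq.mem)
    rw [div_mul_cancel₀ _ (g.g_ne _ _), h1, mul_zero, pv,
      (Plc.π_aeval (fun v : Vr (io2 g) => (hp v.1 v.2).1) Q).2] at h6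
    have h7 := pv_div hQ (t.ev x₀) fun j => t.ev x₀ j (e2 g l j₀ j)
    rw [pv, ← funext fun v : Vr (io2 g) => (hp v.1 v.2).2, h6] at h7
    exact (mul_eq_zero.1 h7.symm).resolve_left
      (Finset.prod_ne_zero_iff.2 fun j _ => pow_ne_zero _ (inv_ne_zero (he j)))
  · refine absurd (deg_zero t (j := true) (i := j₀) ?_) d1
    intro x₁ h2
    apply h1
    obtain ⟨j₁, hj₁⟩ : ∃ j : Fin (g.M + 1), t.ev x₁ true j ≠ 0 := nz_ev t hok x₁ true
    have h3 : t.ev x₁ false = t.ev x₀ false := funext fun i =>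
      (tree_const t hok d0 x₁ i).trans (tree_const t hok d0 x₀ i).symm
    obtain ⟨p', hp'⟩ := exists_plc hT (hon x₁) (e2 g l j₁) (by
      rintro (_ | _)
      exacts [h3 ▸ hl, hj₁])
    have hA' : P.A l ≤ p'.O := Algebra.adjoin_le (Set.range_subset_iff.2 fun i => (hp' false i).1)
    have h4 : ∀ a ∈ P.A l, p.π a = p'.π a := fun a ha => by
      obtain ⟨r, rfl⟩ := exists_poly ha
      refine (Plc.π_aeval (fun i => (hp false i).1) r).2.trans
        (Eq.trans ?_ (Plc.π_aeval (fun i => (hp' false i).1) r).2.symm)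
      exact congrArg (MvPolynomial.aeval · r) (funext fun i =>
        (hp false i).2.trans (h3 ▸ (hp' false i).2.symm))
    have h5 : p'.π (g.f j₀ / g.f j₁) = 0 :=
      (hp' true j₀).2.trans (div_eq_zero_iff.2 (Or.inl h2))
    have h6 := p'.π_mul (f := g.f j₀ / g.f j₁) (hp' true j₀).1 (hA' (g.mem j₁ _))
    rw [h5, zero_mul, ← g.g_div l, div_mul_cancel₀ _ (g.g_ne l j₁)] at h6
    exact (h4 _ (g.mem _ _)).trans h6

/-- **the exceptional line** -/
theorem exists_line [Algebra.EssFiniteType ℂ κ] (h : SmC P q 2 2) (hT : Ideal.span (Set.range T.F) =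
      Syz.hI ℂ Sigma.fst fun v : Vr (io2 g) => y2 g v.1 v.2) (d0 : d false = 0) (d1 : d true = 1)
    {ν : Bool → ℕ} (ν0 : ν false = 2) (ν1 : ν true = 0) :
    ∃ f : (j : Bool) → io2 g j → κ[X], Line T d ν true f ∧ Tan T d f := by
  obtain ⟨x, hx⟩ := h.ne
  obtain ⟨s, w, ha⟩ := h.crd x hx
  obtain ⟨i₀, hi⟩ := exists_pat x
  obtain ⟨v, hv⟩ := h.exists_ord two_pos
  obtain ⟨β⟩ := h.exists_basis'
  have hd : dim ℂ κ = 2 := (Module.finrank_eq_card_basis β).trans (Fintype.card_fin 2)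
  have hA : P.A i₀ ≤ q.O := (A_le hi).trans hx
  have hs := ha.coI h
  have hc := coI_iff.1 hs
  have hr : ∀ l, q.hom (hc.el l) = 0 := hs.π_eq
  have hs0 := hs.ne_zero 0
  choose R hR1 hR2 using fun j => exists_lin hc (van_plc.2 ⟨hA (g.mem j i₀), g.van j i₀ hA⟩)
  let F : (j : Bool) → io2 g j → q.O[X] := fun
    | false => fun i => C ⟨P.y i / P.y i₀, hA (div_mem_chart P.y i₀ i)⟩
    | true => R
  have hF : (fun j i => aeval (s 1 / s 0) (F j i)) = fun j i => y2 g j i / n2 g i₀ (s 0) j := by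
    funext j i
    cases j
    · exact aeval_C _ _
    · exact ((div_div _ _ _).symm.trans ((congrArg (· / s 0) (hR2 i)).trans
        (mul_div_cancel_left₀ _ hs0))).symm
  have hdeg : ∀ j i, (F j i).natDegree ≤ d j := by
    rintro (_ | _) i
    exacts [(natDegree_C _).le.trans (Nat.zero_le _), d1 ▸ hR1 i]
  have hon : T.On fun j i => aeval (s 1 / s 0) (F j i) := fun a => by
    rw [hF, pv_div (T.hom a)]
    exact mul_eq_zero_of_right _ (Syz.aeval_eqn hT a)
  have h0 : ∀ i, ((F false i).map (q.hom : q.O →+* κ)).coeff 0 = q.π (P.y i / P.y i₀) := fun i =>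
    (coeff_map _ _).trans (congrArg _ coeff_C_zero)
  have h1 : q.π (P.y i₀ / P.y i₀) = 1 := by rw [div_self (P.y_ne _), q.π_one]
  have h2 : ∀ (a : Fin 2) (p : q.O[X]), aeval (s 1 / s 0) p = s a / s 0 →
      ∃ r : Fin (g.M + 1) → κ, ∑ j, C (r j) * (R j).map (q.hom : q.O →+* κ) =
        p.map (q.hom : q.O →+* κ) := fun a p hp => by
    obtain ⟨r, h3, h4⟩ := Gens.inI_s (G := g) ha hi a
    have h5 := red_zero hc q.hom hr (P := ∑ j, C ⟨r j, hx (h3 j)⟩ * R j - p) (by
      rw [map_sub, hp, h4, map_sum, Finset.sum_div, sub_eq_zero]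
      refine Finset.sum_congr rfl fun j _ => ?_
      rw [map_mul, aeval_C, Gens.g, hR2, mul_div_assoc, mul_div_cancel_left₀ _ hs0]
      rfl)
    rw [Polynomial.map_sub, sub_eq_zero, Polynomial.map_sum] at h5
    exact ⟨_, by simpa only [Polynomial.map_mul, map_C] using h5⟩
  refine ⟨fun j i => (F j i).map (q.hom : q.O →+* κ),
    ⟨⟨fun j i => natDegree_map_le.trans (hdeg j i), ?_, ?_⟩, d1, ?_,
      fun a => pf_red hc q.hom hr (hon a), top_unique fun z _ => ?_, ?_, fun j hj => ?_,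
      fun Q k hQ h3 E _ _ z hz => sw h hT d0 (d1 ▸ one_ne_zero) hv (i₀ := i₀) (hv.v_s hs 0) hQ
        ?_ hz⟩, ?_⟩
  · rintro (_ | _)
    · exact ⟨i₀, d0 ▸ ((h0 i₀).trans h1).trans_ne one_ne_zero⟩
    · obtain ⟨r, h3⟩ := h2 1 X (aeval_X _)
      have h4 := congrArg (coeff · 1) h3
      simp only [finsetSum_coeff, coeff_C_mul, map_X, coeff_X_one] at h4
      obtain ⟨j, -, hj⟩ := Finset.exists_ne_zero_of_sum_ne_zero (h4 ▸ one_ne_zero)
      exact ⟨j, d1 ▸ right_ne_zero_of_mul hj⟩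
  · rintro (_ | _)
    · refine (Ideal.eq_top_iff_one _).2 (Ideal.subset_span ⟨i₀, ?_⟩)
      exact (map_C _).trans ((congrArg C h1).trans C_1)
    · obtain ⟨r, h3⟩ := h2 0 1 (by rw [map_one, div_self hs0])
      exact (Ideal.eq_top_iff_one _).2 (Ideal.mem_span_range_iff_exists_fun.2
        ⟨_, h3.trans (Polynomial.map_one _)⟩)
  · rintro (_ | _) hj
    exacts [d0, absurd ν1 hj]
  · have h3 : ∀ a ∈ P.A i₀, q.π a ∈ bas ν fun j i =>
        ((F j i).map (q.hom : q.O →+* κ)).coeff 0 := fun a ha => by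
      obtain ⟨r, rfl⟩ := exists_poly ha
      rw [(Plc.π_aeval (fun i => hA (div_mem_chart P.y i₀ i)) r).2]
      refine aeval_mem (S := IntermediateField.toSubalgebra _) (fun i => ?_) r
      exact IntermediateField.subset_adjoin _ _ ⟨false, i, i₀, ν0 ▸ two_ne_zero,
        (div_one _).symm.trans (congrArg₂ (· / ·) (h0 i) ((h0 i₀).trans h1)).symm⟩
    obtain ⟨a, ha, rfl⟩ := h.surj z
    obtain ⟨b, hb, c, hc, h4, h5⟩ := h.loc_A hA ha
    rw [eq_div_of_mul_eq h4 ((q.π_mul ha (hA hc)).symm.trans (congrArg q.π h5))]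
    exact div_mem (h3 b hb) (h3 c hc)
  · rw [hd, Fintype.sum_bool, ν0, ν1]
  · cases j
    · exact (dim_qf_le (al := AlgHom.id ℂ κ) fun _ _ => ⟨_, rfl⟩).trans (hd.trans ν0.symm).le
    · exact absurd ν1 hj
  · rw [← hF, pv_aeval]
    refine v_aeval_lt hv ?_ ((pf_map _ _ _).symm.trans h3)
    rw [map_div₀, hv.v_s hs, hv.v_s hs, div_self exp_ne_zero]
  · obtain ⟨b, hb, c, hc', h4, h5⟩ := h.loc_A hA (hs.mem 0)
    obtain ⟨Q, k, hQ, h6⟩ := exists_mh (fun j i => y2 g j i / n2 g i₀ (s 0) j) (j := false)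
      (i₀ := i₀) (div_self (P.y_ne _)) hb
    exact tan_of_coords hc q.hom hr hdeg hon hQ (w := C ⟨c, hA hc'⟩)
      (by rw [hF, h6, aeval_C, ← h5]; rfl) (by rw [map_C]; exact C_ne_zero.2 h4)

variable {C : Coh.Th} {B : Hb.Th}

/-- **the invariant of the exceptional line** -/
theorem nume (V : Vir C B) (hN : NumEStmt) : NUME V.gw := by
  intro K κ _ _ _ _ P q h g r e n c m
  have : Algebra.EssFiniteType ℂ κ := Coh.instEssFiniteTypeComplexF (sv h.model)
  obtain ⟨f, h1, h2⟩ := exists_line (T := m.tgt) (d := Finsupp.single true 1) h m.tgt_isEq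
    (by simp) (by simp) (ν := Pi.single false 2) (by simp) (by simp)
  obtain ⟨β⟩ := h.exists_basis
  have h3 := (V.gen _ m.toPre).dm
  rw [show dim ℂ (sv (g.bl h)).F = 4 from
    (Module.finrank_eq_card_basis β).trans (Fintype.card_fin _)] at h3
  have h4 := hN B V.hB m.tgt _ _ _ true f (V.good m _) h1
    (by rw [← h3, Fintype.sum_bool]; simp) h2 (0 : Fin 3) (Fintype.card_fin 3)
  rw [← itg_lin V m, Fintype.prod_bool] at h4
  simpa using h4

end Crest.Agent.X262.EndsCl
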