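import Crest.Agent.X262.EndsCl.Cls
import Crest.Agent.X262.Ms2.Defs
import Crest.Agent.X262.Ms2.Pn
import Crest.Agent.X277.Cns.Jac

/-!
# Row 262, road B, ENDS-CL (helper50), part 3: the general fibre of the master space

* `qf_model`, `rt_of_isRF`, `mem_of_isPF` : generators of the function fields;
* `numl` : `Gwb.NumStmt` for the instance and `Ms2.Full`.
-/

set_option autoImplicit false
set_option linter.unusedSectionVars false

noncomputable section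

namespace Crest.Agent.X262.EndsCl

open Crest.Agent.X277 Crest.Agent.X277.Lef Crest.Agent.X277.AN.G1 Crest.Agent.X277.BD
  Crest.Agent.R274.Prod1_134
open Crest.Agent.X277.Cns (IsRF evp)
open Crest.Agent.X262.Coh Crest.Agent.X262.Vb Crest.Agent.X262.Gwb Crest.Agent.X262.Ends
open Crest.Agent.X262.EndsMk
open Polynomial

section Fld

variable {F F' K L : Type} [Field F] [Algebra ℂ F] [Field F'] [Algebra ℂ F'] [Field K] [Algebra ℂ K]
  [Field L] [Algebra ℂ L]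

theorem qf_model (P : PModel ℂ F) (α : F →ₐ[ℂ] L) :
    (qf ℂ fun i => α (P.y i)) = α.fieldRange := by
  refine le_antisymm (IntermediateField.adjoin_le_iff.2 ?_) ?_
  · rintro _ ⟨i, j, rfl⟩
    exact ⟨P.y j / P.y i, map_div₀ α _ _⟩
  · have h1 : P.A 0 ≤ ((qf ℂ fun i => α (P.y i)).comap α).toSubalgebra :=
      Algebra.adjoin_le (Set.range_subset_iff.2 fun j => by
        change α (P.y j / P.y 0) ∈ qf ℂ fun i => α (P.y i)
        rw [map_div₀]
        exact div_mem_qf _ _ _)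
    rintro _ ⟨f, rfl⟩
    obtain ⟨a, ha, c, hc, -, rfl⟩ := P.frac' 0 f
    change α (a / c) ∈ _
    rw [map_div₀]
    exact div_mem (show α a ∈ _ from h1 ha) (show α c ∈ _ from h1 hc)

theorem rt_of_isRF {ρ : K →ₐ[ℂ] L} {t : L} (h : IsRF ρ t) : Rt ρ t := by
  have h1 : ∀ p, evp ρ t p ∈ IntermediateField.adjoin ℂ (Set.range ρ ∪ {t}) := fun p => by
    rw [Cns.evp_eq_sum_support]
    exact sum_mem fun j _ => mul_mem (IntermediateField.subset_adjoin _ _ (Or.inl ⟨_, rfl⟩))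
      (pow_mem (IntermediateField.subset_adjoin ℂ (Set.range ρ ∪ {t}) (Or.inr rfl)) j)
  refine ⟨fun g hg => h.inj (hg.trans (map_zero _).symm), top_unique fun x _ => ?_⟩
  obtain ⟨p, q, rfl⟩ := h.frac x
  exact div_mem (h1 p) (h1 q)

theorem mem_of_isPF {α : F →ₐ[ℂ] K} {β : F' →ₐ[ℂ] K} (h : IsPF α β) {S : IntermediateField ℂ K}
    (h1 : ∀ a, α a ∈ S) (h2 : ∀ b, β b ∈ S) (x : K) : x ∈ S := by
  have h3 : (Algebra.TensorProduct.productMap α β).range ≤ S.toSubalgebra := by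
    rw [Algebra.TensorProduct.productMap_range]
    exact sup_le (by rintro _ ⟨a, rfl⟩; exact h1 a) (by rintro _ ⟨b, rfl⟩; exact h2 b)
  obtain ⟨a, ha, b, hb, -, rfl⟩ := h.frac x
  exact div_mem (show a ∈ S from h3 ha) (show b ∈ S from h3 hb)

theorem exists_G {ρ : K →ₐ[ℂ] L} {t : L} (h : Rt ρ t) {ι : Type} [Fintype ι] [DecidableEq ι]
    {a b : ι → K} (i₀ : ι) (h0 : a i₀ * b i₀ ≠ 0) {τ : Tup L}
    (hτ : τ = ⟨Option ι, fun o => o.elim t fun k => ρ (a k) * ρ (b k)⟩) :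
    ∃ g : τ.io → K[X], (∀ i, τ.y i = 1 * aevalTower ρ t (g i)) ∧ (∀ i, (g i).natDegree ≤ 1) ∧
      ∃ i i', τ.y i / τ.y i' ∉ Set.range ρ := by
  subst hτ
  refine ⟨fun o => o.elim X fun k => C (a k * b k), ?_, ?_, none, some i₀, ?_⟩
  · rintro (_ | k) <;> simp
  · rintro (_ | k)
    exacts [natDegree_X_le, (natDegree_C _).le.trans zero_le_one]
  · rintro ⟨c, hc⟩
    change ρ c = t / (ρ (a i₀) * ρ (b i₀)) at hc
    rw [← map_mul, eq_div_iff ((map_ne_zero ρ).2 h0), ← map_mul] at hc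
    exact X_sub_C_ne_zero _ (h.inj _ (by rw [map_sub, aevalTower_X, aevalTower_C, hc, sub_self]))

end Fld

variable {C : Coh.Th} {B : Hb.Th}

theorem prod_dg (hM : C.MAN) {Y : SV} (m : Pre Y) (ν : m.J → ℕ) (S : Finset m.J) :
    ∏ j ∈ S, m.h C j ^ ν j ∈ C.dg Y (∑ j ∈ S, ν j) := by
  induction S using Finset.cons_induction with
  | empty => simpa using hM.dg_one Y
  | cons j S hj ih =>
    rw [Finset.prod_cons, Finset.sum_cons]
    exact hM.dg_mul Y (by simpa using hM.dg_pow (hM.c1_dg Y _ (m.reg j).2) (ν j)) ih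

/-- **the number of the general fibre** -/
theorem numl (V : Vir C B) (hN : NumLStmt) : Gwb.NumStmt V.gw Ms2.Full := by
  rintro K _ _ s hs m₁ r M ⟨e⟩
  have : Algebra.EssFiniteType ℂ K := Coh.instEssFiniteTypeComplexF (sv s.Y)
  have : Algebra.EssFiniteType ℂ (PF ℂ K M.S.F) :=
    Coh.instEssFiniteTypeComplexF ((sv s.Y).prod M.S)
  have hr := rt_of_isRF e.rf
  have hA : qf ℂ (M.m.y M.jA) = _ :=
    (congrArg (fun τ : Tup M.B.F => qf ℂ τ.y) e.TA).trans (qf_model s.Y (e.ρ.comp (pα ℂ K M.S.F)))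
  have hS : qf ℂ (M.m.y M.jS) = _ :=
    (congrArg (fun τ : Tup M.B.F => qf ℂ τ.y) e.TS).trans (qf_model M.S.P (e.ρ.comp (pβ ℂ K M.S.F)))
  have hS0 : M.S.dim ≠ 0 := by
    have h1 : Nontrivial (Fin (M.S.P.N + 1)) :=
      cast (congrArg (fun τ : Tup M.B.F => Nontrivial τ.io) e.TS) (M.m.nt M.jS)
    have h2 := Fin.nontrivial_iff_two_le.1 h1
    rw [Ms2.dim_proj M.projS]
    omega
  let ν : M.m.J → ℕ := Pi.single M.jA 4 + Pi.single M.jS M.S.dim
  have νA : ν M.jA = 4 := by simp [ν, e.AS]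
  have νS : ν M.jS = M.S.dim := by simp [ν, e.AS.symm]
  have ν0 : ∀ j, ν j ≠ 0 → j = M.jA ∨ j = M.jS := fun j hj => by_contra fun h => hj (by
    simp [ν, (not_or.1 h).1, (not_or.1 h).2])
  have hq : ∀ j, ν j ≠ 0 → qf ℂ (M.m.y j) ≤ bas ν M.m.y := fun j hj =>
    IntermediateField.adjoin.mono _ _ _ (by rintro _ ⟨i, i', rfl⟩; exact ⟨j, i', i, hj, rfl⟩)
  have hd : dim ℂ (PF ℂ K M.S.F) = ∑ j, ν j := by
    have := finite_kaehler s.Y
    have := finite_kaehler M.S.P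
    rw [dim, (Cns.finrank_pf (isPF ℂ K M.S.F)).2, show Module.finrank K _ = 4 from hs.dim]
    simp [ν, Finset.sum_add_distrib]
  obtain ⟨g, g1, g2, g3⟩ := exists_G hr (a := fun _ => pα ℂ K M.S.F s.gp)
    (b := fun k => pβ ℂ K M.S.F (M.S.P.y k)) 0 (mul_ne_zero ((_root_.map_ne_zero _).2 s.gp_mem.1)
      ((_root_.map_ne_zero _).2 (M.S.P.y_ne 0))) e.TG
  obtain ⟨d, f, -, hL, hc⟩ := line_of_gen (ν := ν) (j₁ := M.jG) (V.gen _ M.m.toPre) hr g1 g2 g3
    (fun j hj i i' => by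
      have h1 := div_mem_qf (k := ℂ) (M.m.y j) i' i
      rcases ν0 j hj with rfl | rfl
      · obtain ⟨x, hx⟩ := hA ▸ h1
        exact ⟨_, hx⟩
      · obtain ⟨x, hx⟩ := hS ▸ h1
        exact ⟨_, hx⟩)
    (fun x => mem_of_isPF (isPF ℂ K M.S.F) (S := (bas ν M.m.y).comap e.ρ)
      (fun a => hq _ (νA ▸ four_ne_zero) (hA ▸ ⟨a, rfl⟩))
      (fun b => hq _ (νS ▸ hS0) (hS ▸ ⟨b, rfl⟩)) x) hd fun j hj => by
      rcases ν0 j hj with rfl | rfl
      · rw [hA, νA, ← hs.dim]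
        exact dim_sub_le _ fun _ h => h
      · rw [hS, νS]
        exact dim_sub_le _ fun _ h => h
  refine ⟨Finsupp.equivFunOnFinite.symm d, hL.zero _ (νA ▸ four_ne_zero), hL.zero _ (νS ▸ hS0),
    hL.one, (∏ j, M.m.h C j ^ ν j) * M.G C, ?_, ?_⟩
  · rw [SV.dim, hr.dim, hd]
    exact V.man.dg_mul _ (prod_dg V.man _ ν _) (V.man.c1_dg _ _ (M.m.reg _).2)
  · rw [itg_lin V M.m]
    exact hN B V.hB M.m.tgt _ d ν M.jG f (V.good M.m d) hL hc (0 : Fin 3) (Fintype.card_fin 3)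

end Crest.Agent.X262.EndsCl
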